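import Vale.Agent.P036.Main

namespace Vale.Agent.Results.P036.Disproof

/-- The area of the triangle `pqr`. -/
noncomputable def area (p q r : ℝ × ℝ) : ℝ :=
  |(q.1 - p.1) * (r.2 - p.2) - (r.1 - p.1) * (q.2 - p.2)| / 2

/-- The least area of a triangle on three distinct points of `P`. -/
noncomputable def minArea (P : Finset (ℝ × ℝ)) : ℝ :=
  sInf {x | ∃ p ∈ P, ∃ q ∈ P, ∃ r ∈ P, p ≠ q ∧ p ≠ r ∧ q ≠ r ∧ x = area p q r}

/-- The Heilbronn function: the largest `minArea` of an `n`-point subset of the unit square. -/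
noncomputable def heilbronn (n : ℕ) : ℝ :=
  sSup {x | ∃ P : Finset (ℝ × ℝ), P.card = n ∧
    (∀ p ∈ P, p.1 ∈ Set.Icc (0 : ℝ) 1 ∧ p.2 ∈ Set.Icc (0 : ℝ) 1) ∧ x = minArea P}

lemma le_heilbronn (P : Finset (ℝ × ℝ)) (h3 : 3 ≤ P.card)
    (hP : ∀ p ∈ P, p.1 ∈ Set.Icc (0 : ℝ) 1 ∧ p.2 ∈ Set.Icc (0 : ℝ) 1) (c : ℝ)
    (hc : ∀ p ∈ P, ∀ q ∈ P, ∀ r ∈ P, p ≠ q → p ≠ r → q ≠ r → c ≤ area p q r) :
    c ≤ heilbronn P.card := by
  refine le_trans ?_ (le_csSup ⟨1, ?_⟩ ⟨P, rfl, hP, rfl⟩)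
  · obtain ⟨p, hp, q, hq, r, hr, h⟩ := Finset.two_lt_card.1 h3
    refine le_csInf ⟨_, p, hp, q, hq, r, hr, h.1, h.2.1, h.2.2, rfl⟩ ?_
    rintro _ ⟨p, hp, q, hq, r, hr, h1, h2, h3, rfl⟩
    exact hc p hp q hq r hr h1 h2 h3
  · rintro _ ⟨R, hR, hR1, rfl⟩
    obtain ⟨p, hp, q, hq, r, hr, h⟩ := Finset.two_lt_card.1 (show 2 < R.card by omega)
    refine le_trans (csInf_le ⟨0, ?_⟩ ⟨p, hp, q, hq, r, hr, h.1, h.2.1, h.2.2, rfl⟩) ?_
    · rintro _ ⟨p, -, q, -, r, -, -, -, -, rfl⟩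
      rw [area]; positivity
    · obtain ⟨⟨a1, a2⟩, a3, a4⟩ := hR1 p hp
      obtain ⟨⟨b1, b2⟩, b3, b4⟩ := hR1 q hq
      obtain ⟨⟨c1, c2⟩, c3, c4⟩ := hR1 r hr
      have e : ∀ s t : ℝ, |s| ≤ 1 → |t| ≤ 1 → |s * t| ≤ 1 := fun s t hs ht => by
        rw [abs_mul]; exact mul_le_one₀ hs (abs_nonneg _) ht
      have e1 := e (q.1 - p.1) (r.2 - p.2) (abs_le.2 ⟨by linarith, by linarith⟩)
        (abs_le.2 ⟨by linarith, by linarith⟩)
      have e2 := e (r.1 - p.1) (q.2 - p.2) (abs_le.2 ⟨by linarith, by linarith⟩)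
        (abs_le.2 ⟨by linarith, by linarith⟩)
      have := abs_sub ((q.1 - p.1) * (r.2 - p.2)) ((r.1 - p.1) * (q.2 - p.2))
      rw [area]; linarith

lemma lower : ∃ δ : ℝ, 0 < δ ∧ ∃ n0 : ℕ, ∀ n : ℕ, n0 ≤ n → (n : ℝ) ^ (-2 + δ) ≤ heilbronn n := by
  classical
  obtain ⟨T, n0, hT, h⟩ := Vale.Agent.P036.exists_grid
  refine ⟨(T : ℝ)⁻¹, by positivity, n0 + 3, fun n hn => ?_⟩
  obtain ⟨q, hq, ι, J, x, y, N, hJ, hx, hy, hd⟩ := h n (by omega)
  obtain ⟨I, hI, rfl⟩ := Finset.exists_subset_card_eq hJ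
  have h3 : 2 < I.card := by omega
  obtain ⟨i0, -, -⟩ := Finset.two_lt_card.1 h3
  have hN : 0 < N := by have := hx i0; omega
  have hN' : (0 : ℝ) < N := by exact_mod_cast hN
  have hq0 : 0 < q := by
    rcases Nat.eq_zero_or_pos q with rfl | h
    · rw [zero_pow hT.ne'] at hq; omega
    · exact h
  have hn' : (0 : ℝ) < I.card := by exact_mod_cast (by omega : 0 < I.card)
  let f : ι → ℝ × ℝ := fun i => ((x i : ℝ) / N, (y i : ℝ) / N)
  have harea : ∀ i ∈ I, ∀ j ∈ I, ∀ k ∈ I, i ≠ j → i ≠ k → j ≠ k →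
      (q : ℝ) / I.card ^ 2 ≤ area (f i) (f j) (f k) := by
    intro i hi j hj k hk hij hik hjk
    have e : (2 * q * N ^ 2 : ℝ) ≤ (I.card : ℝ) ^ 2 *
        |(x j - x i : ℝ) * (y k - y i) - (x k - x i) * (y j - y i)| := by
      exact_mod_cast hd i (hI hi) j (hI hj) k (hI hk) hij hik hjk
    have e2 : area (f i) (f j) (f k) =
        |(x j - x i : ℝ) * (y k - y i) - (x k - x i) * (y j - y i)| / N ^ 2 / 2 := by
      rw [area, ← abs_of_pos (pow_pos hN' 2), ← abs_div]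
      congr 2
      simp only [f]
      field_simp
    rw [e2, div_div, div_le_div_iff₀ (by positivity) (by positivity)]
    linarith
  have hinj : Set.InjOn f I := by
    intro i hi j hj hij
    by_contra hne
    obtain ⟨k, hk, hk'⟩ := Finset.exists_mem_notMem_of_card_lt_card
      (lt_of_le_of_lt (Finset.card_le_two (a := i) (b := j)) h3)
    simp only [Finset.mem_insert, Finset.mem_singleton, not_or] at hk'
    have := harea i hi j hj k hk hne (Ne.symm hk'.1) (Ne.symm hk'.2)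
    rw [← hij, area] at this
    simp only [sub_self, zero_mul, mul_zero, abs_zero, zero_div] at this
    exact absurd this (not_le.2 (by positivity))
  have hc := Finset.card_image_of_injOn hinj
  have := le_heilbronn (I.image f) (by omega) (fun p hp => by
    obtain ⟨i, -, rfl⟩ := Finset.mem_image.1 hp
    have a1 : (0 : ℝ) ≤ x i := by exact_mod_cast (hx i).1
    have a2 : (x i : ℝ) ≤ N := by exact_mod_cast (hx i).2.le
    have a3 : (0 : ℝ) ≤ y i := by exact_mod_cast (hy i).1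
    have a4 : (y i : ℝ) ≤ N := by exact_mod_cast (hy i).2.le
    exact ⟨⟨by positivity, (div_le_one hN').2 a2⟩, by positivity, (div_le_one hN').2 a4⟩)
    ((q : ℝ) / I.card ^ 2) (fun p hp p' hp' p'' hp'' h1 h2 h3 => by
      obtain ⟨i, hi, rfl⟩ := Finset.mem_image.1 hp
      obtain ⟨j, hj, rfl⟩ := Finset.mem_image.1 hp'
      obtain ⟨k, hk, rfl⟩ := Finset.mem_image.1 hp''
      exact harea i hi j hj k hk (fun h => h1 (h ▸ rfl)) (fun h => h2 (h ▸ rfl))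
        (fun h => h3 (h ▸ rfl)))
  rw [hc] at this
  refine le_trans ?_ this
  have e1 : (I.card : ℝ) ^ (T : ℝ)⁻¹ ≤ q := by
    calc (I.card : ℝ) ^ (T : ℝ)⁻¹ ≤ ((q : ℝ) ^ T) ^ (T : ℝ)⁻¹ :=
          Real.rpow_le_rpow hn'.le (by exact_mod_cast hq) (by positivity)
      _ = q := Real.pow_rpow_inv_natCast (Nat.cast_nonneg _) hT.ne'
  rw [Real.rpow_add hn', Real.rpow_neg hn'.le, Real.rpow_two, div_eq_inv_mul]
  gcongr

theorem result :
    (∃ δ : ℝ, 0 < δ ∧ ∃ n0 : ℕ, ∀ n : ℕ, n0 ≤ n → (n : ℝ) ^ (-2 + δ) ≤ heilbronn n) ∧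
    ¬ ∀ ε : ℝ, 0 < ε → ∃ (C : ℝ) (n0 : ℕ), ∀ n : ℕ, n0 ≤ n →
      heilbronn n ≤ C * (n : ℝ) ^ (-2 + ε) := by
  refine ⟨lower, fun h => ?_⟩
  obtain ⟨δ, hδ, n0, h0⟩ := lower
  obtain ⟨C, n1, h1⟩ := h (δ / 2) (by positivity)
  have ht := ((tendsto_rpow_atTop (show 0 < δ / 2 by positivity)).comp
    tendsto_natCast_atTop_atTop).eventually_gt_atTop C
  obtain ⟨n, hn, hn'⟩ := (ht.and (Filter.eventually_ge_atTop (n0 + n1 + 1))).exists
  have hp : (0 : ℝ) < n := by exact_mod_cast (by omega : 0 < n)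
  have e := (h0 n (by omega)).trans (h1 n (by omega))
  rw [show -2 + δ = δ / 2 + (-2 + δ / 2) by ring, Real.rpow_add hp] at e
  exact absurd (le_of_mul_le_mul_right e (Real.rpow_pos_of_pos hp _)) (not_le.2 hn)

end Vale.Agent.Results.P036.Disproof
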